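import Mathlib

/-!
# Abstract wrapper for a 63-dimensional counterexample to Borsuk's conjecture (P052)

Input: a graph on 416 vertices with the parameters of a strongly regular graph
`(416, 100, 36, 20)`, two integer eigenvectors `g1, g2` of the adjacency matrix for the
eigenvalue `20` with Gram matrix `[[64, 32 ε], [32 ε, 64]]`, a vertex `t` with
`g1 t = σ = ±1`, `g2 t = 0`, such that the set `W = {g1 = 0 ∧ g2 = 0} ∪ {t}` has more than
`320` vertices and contains no `6` pairwise adjacent vertices.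

Output: a finite subset of `EuclideanSpace ℝ (Fin 63)` of positive diameter which is not a
union of `64` subsets of smaller diameter.

The points are the rows `r s` (`s ∈ W`, `s ≠ t`) of `16 I + 4 A - J` and the vector
`α • p`, where `p = r t - 2 σ g1 + σ ε g2` is the orthogonal projection of `r t` to
`{g1, g2}ᗮ` and `α = (√222 - 1) / 13`.  No finite computation happens in this file.
-/

namespace Vale.Agent.H71.Borsuk

open Finset

set_option linter.unusedSectionVars false

variable {V : Type} [Fintype V] [DecidableEq V] (adj : V → V → Prop) [DecidableRel adj]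

/-- The entries of the matrix `16 I + 4 A - J`. -/
def rEntry (u v : V) : ℝ := (if u = v then 16 else 0) + (if adj u v then 4 else 0) - 1

theorem rEntry_eq (u v : V) : rEntry adj u v =
    16 * (if u = v then (1:ℝ) else 0) + 4 * (if adj u v then (1:ℝ) else 0) - 1 := by
  unfold rEntry
  by_cases h1 : u = v <;> by_cases h2 : adj u v <;> simp [h1, h2]

theorem rEntry_symm (hsymm : ∀ u v, adj u v → adj v u) (u v : V) :
    rEntry adj u v = rEntry adj v u := by
  unfold rEntry
  have h1 : (u = v) ↔ (v = u) := eq_comm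
  have h2 : adj u v ↔ adj v u := ⟨hsymm u v, hsymm v u⟩
  simp only [h1, h2]

theorem rEntry_self (hirr : ∀ v, ¬ adj v v) (v : V) : rEntry adj v v = 15 := by
  unfold rEntry
  simp [hirr v]
  norm_num

theorem rEntry_adj {u v : V} (hne : u ≠ v) (h : adj u v) : rEntry adj u v = 3 := by
  unfold rEntry
  simp [hne, h]
  norm_num

theorem rEntry_not_adj {u v : V} (hne : u ≠ v) (h : ¬ adj u v) : rEntry adj u v = -1 := by
  unfold rEntry
  simp [hne, h]

theorem sum_adj_eq (hsrg : ∀ u v, (univ.filter (fun w => adj u w ∧ adj v w)).card =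
      if u = v then 100 else if adj u v then 36 else 20) (u : V) :
    ∑ w, (if adj u w then (1 : ℝ) else 0) = 100 := by
  have h := hsrg u u
  simp only [and_self, if_true] at h
  rw [Finset.sum_boole, h]
  norm_num

theorem sum_adj_mul_eq (hsrg : ∀ u v, (univ.filter (fun w => adj u w ∧ adj v w)).card =
      if u = v then 100 else if adj u v then 36 else 20) (u v : V) :
    ∑ w, (if adj u w then (1 : ℝ) else 0) * (if adj v w then (1 : ℝ) else 0) =
      if u = v then 100 else if adj u v then 36 else 20 := by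
  have h := hsrg u v
  have e : ∀ w, (if adj u w then (1 : ℝ) else 0) * (if adj v w then (1 : ℝ) else 0) =
      if adj u w ∧ adj v w then 1 else 0 := by
    intro w
    by_cases h1 : adj u w <;> by_cases h2 : adj v w <;> simp [h1, h2]
  simp only [e]
  rw [Finset.sum_boole, h]
  split_ifs <;> norm_num

theorem sum_rEntry_mul (hsymm : ∀ u v, adj u v → adj v u) (hirr : ∀ v, ¬ adj v v)
    (hcard : Fintype.card V = 416)
    (hsrg : ∀ u v, (univ.filter (fun w => adj u w ∧ adj v w)).card =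
      if u = v then 100 else if adj u v then 36 else 20) (u v : V) :
    ∑ w, rEntry adj u w * rEntry adj v w = 96 * rEntry adj u v := by
  have key : ∀ w, rEntry adj u w * rEntry adj v w =
      256 * ((if u = w then (1:ℝ) else 0) * (if v = w then (1:ℝ) else 0))
      + 64 * ((if u = w then (1:ℝ) else 0) * (if adj v w then (1:ℝ) else 0))
      + 64 * ((if adj u w then (1:ℝ) else 0) * (if v = w then (1:ℝ) else 0))
      + 16 * ((if adj u w then (1:ℝ) else 0) * (if adj v w then (1:ℝ) else 0))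
      - 16 * (if u = w then (1:ℝ) else 0) - 16 * (if v = w then (1:ℝ) else 0)
      - 4 * (if adj u w then (1:ℝ) else 0) - 4 * (if adj v w then (1:ℝ) else 0) + 1 := by
    intro w
    rw [rEntry_eq, rEntry_eq]
    ring
  simp only [key]
  simp only [Finset.sum_add_distrib, Finset.sum_sub_distrib, ← Finset.mul_sum]
  rw [sum_adj_eq adj hsrg u, sum_adj_eq adj hsrg v, sum_adj_mul_eq adj hsrg u v]
  have e1 : ∑ w, (if u = w then (1:ℝ) else 0) * (if v = w then (1:ℝ) else 0) =
      if u = v then 1 else 0 := by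
    rw [Finset.sum_eq_single u]
    · by_cases h : u = v
      · simp [h]
      · simp [h, Ne.symm h]
    · intro w _ hw
      simp [Ne.symm hw]
    · intro h; exact absurd (Finset.mem_univ u) h
  have e2 : ∑ w, (if u = w then (1:ℝ) else 0) * (if adj v w then (1:ℝ) else 0) =
      if adj u v then 1 else 0 := by
    rw [Finset.sum_eq_single u]
    · have : adj v u ↔ adj u v := ⟨hsymm v u, hsymm u v⟩
      simp [this]
    · intro w _ hw
      simp [Ne.symm hw]
    · intro h; exact absurd (Finset.mem_univ u) h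
  have e3 : ∑ w, (if adj u w then (1:ℝ) else 0) * (if v = w then (1:ℝ) else 0) =
      if adj u v then 1 else 0 := by
    rw [Finset.sum_eq_single v]
    · simp
    · intro w _ hw
      simp [Ne.symm hw]
    · intro h; exact absurd (Finset.mem_univ v) h
  have e4 : ∑ w, (if u = w then (1:ℝ) else 0) = 1 := by simp
  have e5 : ∑ w, (if v = w then (1:ℝ) else 0) = 1 := by simp
  have e6 : ∑ _w : V, (1 : ℝ) = 416 := by
    simp [hcard]
  rw [e1, e2, e3, e4, e5, e6]
  unfold rEntry
  by_cases h1 : u = v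
  · subst h1
    simp [hirr u]
    norm_num
  · by_cases h2 : adj u v
    · simp [h1, h2]
      norm_num
    · simp [h1, h2]
      norm_num

theorem sum_eq_zero_of_eigen (hsymm : ∀ u v, adj u v → adj v u)
    (hsrg : ∀ u v, (univ.filter (fun w => adj u w ∧ adj v w)).card =
      if u = v then 100 else if adj u v then 36 else 20)
    (g : V → ℝ) (hg : ∀ v, ∑ w, (if adj v w then (1:ℝ) else 0) * g w = 20 * g v) :
    ∑ w, g w = 0 := by
  have h1 : ∑ v, ∑ w, (if adj v w then (1:ℝ) else 0) * g w = 20 * ∑ v, g v := by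
    rw [Finset.mul_sum]
    exact Finset.sum_congr rfl (fun v _ => hg v)
  have h2 : ∑ v, ∑ w, (if adj v w then (1:ℝ) else 0) * g w = 100 * ∑ w, g w := by
    rw [Finset.sum_comm, Finset.mul_sum]
    refine Finset.sum_congr rfl (fun w _ => ?_)
    rw [← Finset.sum_mul]
    have : ∑ v, (if adj v w then (1:ℝ) else 0) = 100 := by
      rw [← sum_adj_eq adj hsrg w]
      refine Finset.sum_congr rfl (fun v _ => ?_)
      have : adj v w ↔ adj w v := ⟨hsymm v w, hsymm w v⟩
      simp [this]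
    rw [this]
  linarith

theorem sum_rEntry_mul_g (hsymm : ∀ u v, adj u v → adj v u)
    (hsrg : ∀ u v, (univ.filter (fun w => adj u w ∧ adj v w)).card =
      if u = v then 100 else if adj u v then 36 else 20)
    (g : V → ℝ) (hg : ∀ v, ∑ w, (if adj v w then (1:ℝ) else 0) * g w = 20 * g v) (v : V) :
    ∑ w, rEntry adj v w * g w = 96 * g v := by
  have h0 := sum_eq_zero_of_eigen adj hsymm hsrg g hg
  have key : ∀ w, rEntry adj v w * g w =
      16 * ((if v = w then (1:ℝ) else 0) * g w) + 4 * ((if adj v w then (1:ℝ) else 0) * g w)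
        - g w := by
    intro w
    rw [rEntry_eq]
    ring
  simp only [key]
  simp only [Finset.sum_add_distrib, Finset.sum_sub_distrib, ← Finset.mul_sum]
  rw [hg v, h0]
  have : ∑ w, (if v = w then (1:ℝ) else 0) * g w = g v := by simp
  rw [this]
  ring

end Vale.Agent.H71.Borsuk

namespace Vale.Agent.H71.Borsuk

open Finset

set_option linter.unusedSectionVars false

variable {V : Type} [Fintype V] [DecidableEq V] (adj : V → V → Prop) [DecidableRel adj]

/-- The scaling factor of the pulled-back point. -/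
noncomputable def alpha : ℝ := (Real.sqrt 222 - 1) / 13

theorem alpha_eq : 13 * alpha ^ 2 + 2 * alpha = 17 := by
  unfold alpha
  have h : Real.sqrt 222 ^ 2 = 222 := Real.sq_sqrt (by norm_num)
  nlinarith

theorem alpha_pos : 0 < alpha := by
  unfold alpha
  have h : (1 : ℝ) < Real.sqrt 222 := by
    rw [show (1 : ℝ) = Real.sqrt 1 by simp]
    exact Real.sqrt_lt_sqrt (by norm_num) (by norm_num)
  linarith

theorem alpha_lt : alpha < 4 := by
  unfold alpha
  have h : Real.sqrt 222 < 53 := by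
    rw [show (53 : ℝ) = Real.sqrt (53 ^ 2) by rw [Real.sqrt_sq (by norm_num)]]
    exact Real.sqrt_lt_sqrt (by norm_num) (by norm_num)
  linarith

section Geometry

variable {E : Type} [NormedAddCommGroup E] [InnerProductSpace ℝ E]

theorem dist_sq_eq (x y : E) :
    dist x y ^ 2 = inner ℝ x x - 2 * inner ℝ x y + inner ℝ y y := by
  rw [dist_eq_norm, ← real_inner_self_eq_norm_sq, inner_sub_left, inner_sub_right,
    inner_sub_right, real_inner_comm x y]
  ring

/-- The projection of `r t` to the orthogonal complement of `G1, G2`. -/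
noncomputable def pvec (r : V → E) (G1 G2 : E) (ε σ : ℝ) (t : V) : E :=
  r t - (2 * σ) • G1 + (σ * ε) • G2

variable (r : V → E) (G1 G2 : E) (g1 g2 : V → ℝ) (ε σ : ℝ) (t : V)

theorem inner_pvec_G1 (hε : ε ^ 2 = 1)
    (hr1 : ∀ s, inner ℝ (r s) G1 = 96 * g1 s)
    (h11 : inner ℝ G1 G1 = 64) (h12 : inner ℝ G1 G2 = 32 * ε)
    (ht1 : g1 t = σ) :
    inner ℝ (pvec r G1 G2 ε σ t) G1 = 0 := by
  unfold pvec
  rw [inner_add_left, inner_sub_left, inner_smul_left, inner_smul_left, hr1, h11,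
    real_inner_comm G1 G2, h12, ht1]
  simp only [conj_trivial]
  linear_combination (32 * σ) * hε

theorem inner_pvec_G2 (hr2 : ∀ s, inner ℝ (r s) G2 = 96 * g2 s)
    (h22 : inner ℝ G2 G2 = 64) (h12 : inner ℝ G1 G2 = 32 * ε)
    (ht2 : g2 t = 0) :
    inner ℝ (pvec r G1 G2 ε σ t) G2 = 0 := by
  unfold pvec
  rw [inner_add_left, inner_sub_left, inner_smul_left, inner_smul_left, hr2, h22, h12, ht2]
  simp only [conj_trivial]
  ring

theorem inner_pvec_r (hrr : ∀ u v, inner ℝ (r u) (r v) = 96 * rEntry adj u v)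
    (hr1 : ∀ s, inner ℝ (r s) G1 = 96 * g1 s)
    (hr2 : ∀ s, inner ℝ (r s) G2 = 96 * g2 s)
    (s : V) (hs1 : g1 s = 0) (hs2 : g2 s = 0) :
    inner ℝ (pvec r G1 G2 ε σ t) (r s) = 96 * rEntry adj t s := by
  unfold pvec
  rw [inner_add_left, inner_sub_left, inner_smul_left, inner_smul_left, hrr,
    real_inner_comm (r s) G1, real_inner_comm (r s) G2, hr1, hr2, hs1, hs2]
  simp

theorem inner_pvec_self (hirr : ∀ v, ¬ adj v v) (hε : ε ^ 2 = 1) (hσ : σ ^ 2 = 1)
    (hrr : ∀ u v, inner ℝ (r u) (r v) = 96 * rEntry adj u v)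
    (hr1 : ∀ s, inner ℝ (r s) G1 = 96 * g1 s)
    (hr2 : ∀ s, inner ℝ (r s) G2 = 96 * g2 s)
    (h11 : inner ℝ G1 G1 = 64) (h22 : inner ℝ G2 G2 = 64) (h12 : inner ℝ G1 G2 = 32 * ε)
    (ht1 : g1 t = σ) (ht2 : g2 t = 0) :
    inner ℝ (pvec r G1 G2 ε σ t) (pvec r G1 G2 ε σ t) = 1248 := by
  have hA := inner_pvec_G1 r G1 G2 g1 ε σ t hε hr1 h11 h12 ht1
  have hB := inner_pvec_G2 r G1 G2 g2 ε σ t hr2 h22 h12 ht2
  have hC : inner ℝ (pvec r G1 G2 ε σ t) (r t) = 1248 := by
    unfold pvec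
    rw [inner_add_left, inner_sub_left, inner_smul_left, inner_smul_left, hrr,
      real_inner_comm (r t) G1, real_inner_comm (r t) G2, hr1, hr2, ht1, ht2,
      rEntry_self adj hirr]
    simp only [conj_trivial]
    linear_combination (-192 : ℝ) * hσ
  have : inner ℝ (pvec r G1 G2 ε σ t) (pvec r G1 G2 ε σ t) =
      inner ℝ (pvec r G1 G2 ε σ t) (r t) - (2 * σ) * inner ℝ (pvec r G1 G2 ε σ t) G1
        + (σ * ε) * inner ℝ (pvec r G1 G2 ε σ t) G2 := by
    conv_lhs => rw [show pvec r G1 G2 ε σ t = r t - (2 * σ) • G1 + (σ * ε) • G2 from rfl]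
    rw [inner_add_right, inner_sub_right, inner_smul_right, inner_smul_right]
    rfl
  rw [this, hA, hB, hC]
  ring

/-- The point attached to a vertex: `r s` for `s ≠ t`, and the scaled projection for `t`. -/
noncomputable def pt (s : V) : E :=
  if s = t then alpha • pvec r G1 G2 ε σ t else r s

theorem dist_sq_r_r (hirr : ∀ v, ¬ adj v v)
    (hrr : ∀ u v, inner ℝ (r u) (r v) = 96 * rEntry adj u v) (u v : V) :
    dist (r u) (r v) ^ 2 = 2880 - 192 * rEntry adj u v := by
  rw [dist_sq_eq, hrr, hrr, hrr, rEntry_self adj hirr, rEntry_self adj hirr]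
  ring

theorem dist_sq_q_r (hirr : ∀ v, ¬ adj v v) (hε : ε ^ 2 = 1) (hσ : σ ^ 2 = 1)
    (hrr : ∀ u v, inner ℝ (r u) (r v) = 96 * rEntry adj u v)
    (hr1 : ∀ s, inner ℝ (r s) G1 = 96 * g1 s)
    (hr2 : ∀ s, inner ℝ (r s) G2 = 96 * g2 s)
    (h11 : inner ℝ G1 G1 = 64) (h22 : inner ℝ G2 G2 = 64) (h12 : inner ℝ G1 G2 = 32 * ε)
    (ht1 : g1 t = σ) (ht2 : g2 t = 0)
    (s : V) (hs1 : g1 s = 0) (hs2 : g2 s = 0) :
    dist (alpha • pvec r G1 G2 ε σ t) (r s) ^ 2 =
      3072 - 192 * alpha * (rEntry adj t s + 1) := by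
  rw [dist_sq_eq, inner_smul_left, inner_smul_left, inner_smul_right,
    inner_pvec_self adj r G1 G2 g1 g2 ε σ t hirr hε hσ hrr hr1 hr2 h11 h22 h12 ht1 ht2,
    inner_pvec_r adj r G1 G2 g1 g2 ε σ t hrr hr1 hr2 s hs1 hs2, hrr, rEntry_self adj hirr]
  simp only [conj_trivial]
  linear_combination (96 : ℝ) * alpha_eq

/-- The table of distances between the points attached to two distinct vertices of
`W = {g1 = 0 ∧ g2 = 0} ∪ {t}`. -/
theorem dist_sq_pt (hsymm : ∀ u v, adj u v → adj v u) (hirr : ∀ v, ¬ adj v v)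
    (hε : ε ^ 2 = 1) (hσ : σ ^ 2 = 1)
    (hrr : ∀ u v, inner ℝ (r u) (r v) = 96 * rEntry adj u v)
    (hr1 : ∀ s, inner ℝ (r s) G1 = 96 * g1 s)
    (hr2 : ∀ s, inner ℝ (r s) G2 = 96 * g2 s)
    (h11 : inner ℝ G1 G1 = 64) (h22 : inner ℝ G2 G2 = 64) (h12 : inner ℝ G1 G2 = 32 * ε)
    (ht1 : g1 t = σ) (ht2 : g2 t = 0)
    (u v : V) (hu : (g1 u = 0 ∧ g2 u = 0) ∨ u = t) (hv : (g1 v = 0 ∧ g2 v = 0) ∨ v = t)
    (huv : u ≠ v) :
    dist (pt r G1 G2 ε σ t u) (pt r G1 G2 ε σ t v) ^ 2 ≤ 3072 ∧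
    0 < dist (pt r G1 G2 ε σ t u) (pt r G1 G2 ε σ t v) ^ 2 ∧
    (¬ adj u v → dist (pt r G1 G2 ε σ t u) (pt r G1 G2 ε σ t v) ^ 2 = 3072) := by
  have ha := alpha_pos
  have ha4 := alpha_lt
  have hqr : ∀ s, s ≠ t → ((g1 s = 0 ∧ g2 s = 0) ∨ s = t) →
      dist (alpha • pvec r G1 G2 ε σ t) (r s) ^ 2 ≤ 3072 ∧
      0 < dist (alpha • pvec r G1 G2 ε σ t) (r s) ^ 2 ∧
      (¬ adj t s → dist (alpha • pvec r G1 G2 ε σ t) (r s) ^ 2 = 3072) := by
    intro s hst hs
    rcases hs with ⟨hs1, hs2⟩ | hs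
    · rw [dist_sq_q_r adj r G1 G2 g1 g2 ε σ t hirr hε hσ hrr hr1 hr2 h11 h22 h12 ht1 ht2 s hs1 hs2]
      by_cases hadj : adj t s
      · rw [rEntry_adj adj (Ne.symm hst) hadj]
        refine ⟨by nlinarith, by nlinarith, fun h => absurd hadj h⟩
      · rw [rEntry_not_adj adj (Ne.symm hst) hadj]
        refine ⟨by norm_num, by norm_num, fun _ => by norm_num⟩
    · exact absurd hs hst
  by_cases hut : u = t
  · have hvt : v ≠ t := fun h => huv (hut.trans h.symm)
    have e1 : pt r G1 G2 ε σ t u = alpha • pvec r G1 G2 ε σ t := by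
      unfold pt; rw [if_pos hut]
    have e2 : pt r G1 G2 ε σ t v = r v := by
      unfold pt; rw [if_neg hvt]
    rw [e1, e2, hut]
    exact hqr v hvt hv
  · have e1 : pt r G1 G2 ε σ t u = r u := by
      unfold pt; rw [if_neg hut]
    by_cases hvt : v = t
    · have e2 : pt r G1 G2 ε σ t v = alpha • pvec r G1 G2 ε σ t := by
        unfold pt; rw [if_pos hvt]
      rw [e1, e2, hvt, dist_comm]
      obtain ⟨h1, h2, h3⟩ := hqr u hut hu
      exact ⟨h1, h2, fun h => h3 (fun h' => h (hsymm t u h'))⟩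
    · have e2 : pt r G1 G2 ε σ t v = r v := by
        unfold pt; rw [if_neg hvt]
      rw [e1, e2, dist_sq_r_r adj r hirr hrr]
      by_cases hadj : adj u v
      · rw [rEntry_adj adj huv hadj]
        refine ⟨by norm_num, by norm_num, fun h => absurd hadj h⟩
      · rw [rEntry_not_adj adj huv hadj]
        refine ⟨by norm_num, by norm_num, fun _ => by norm_num⟩

end Geometry

end Vale.Agent.H71.Borsuk

namespace Vale.Agent.H71.Borsuk

open Finset

set_option linter.unusedSectionVars false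

section General

variable {E : Type} [NormedAddCommGroup E] [InnerProductSpace ℝ E]

theorem mem_orthogonal_span_range {ι : Type} (f : ι → E) (x : E)
    (h : ∀ i, inner ℝ (f i) x = 0) : x ∈ (Submodule.span ℝ (Set.range f))ᗮ := by
  rw [Submodule.mem_orthogonal]
  intro u hu
  induction hu using Submodule.span_induction with
  | mem y hy => obtain ⟨i, rfl⟩ := hy; exact h i
  | zero => simp
  | add a b _ _ ha hb => rw [inner_add_left, ha, hb, add_zero]
  | smul c a _ ha => rw [inner_smul_left, ha, mul_zero]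

theorem finrank_inf_orthogonal_le [FiniteDimensional ℝ E]
    (P : Submodule ℝ E) (G1 G2 : E) (ε : ℝ) (hε : ε ^ 2 = 1)
    (hG1 : G1 ∈ P) (hG2 : G2 ∈ P)
    (h11 : inner ℝ G1 G1 = 64) (h22 : inner ℝ G2 G2 = 64) (h12 : inner ℝ G1 G2 = 32 * ε)
    (n : ℕ) (hP : Module.finrank ℝ P = n + 2) :
    Module.finrank ℝ ↥(P ⊓ (Submodule.span ℝ (Set.range ![G1, G2]))ᗮ) ≤ n := by
  have hli : LinearIndependent ℝ ![G1, G2] := by
    rw [LinearIndependent.pair_iff]
    intro s t hst
    have e1 : inner ℝ G1 (s • G1 + t • G2) = 0 := by rw [hst, inner_zero_right]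
    have e2 : inner ℝ G2 (s • G1 + t • G2) = 0 := by rw [hst, inner_zero_right]
    rw [inner_add_right, inner_smul_right, inner_smul_right, h11, h12] at e1
    rw [inner_add_right, inner_smul_right, inner_smul_right, real_inner_comm G1 G2, h12, h22] at e2
    have ht : t = 0 := by
      have : 48 * t = 0 := by linear_combination e2 - (ε / 2) * e1 + (16 * t) * hε
      linarith
    subst ht
    have hs : s = 0 := by linarith
    exact ⟨hs, rfl⟩
  have hS : Module.finrank ℝ ↥(Submodule.span ℝ (Set.range ![G1, G2])) = 2 := by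
    rw [finrank_span_eq_card hli]
    simp
  have hSP : Submodule.span ℝ (Set.range ![G1, G2]) ≤ P := by
    rw [Submodule.span_le]
    rintro x ⟨i, rfl⟩
    fin_cases i
    · exact hG1
    · exact hG2
  have hdisj : (P ⊓ (Submodule.span ℝ (Set.range ![G1, G2]))ᗮ) ⊓
      Submodule.span ℝ (Set.range ![G1, G2]) = ⊥ := by
    rw [eq_bot_iff]
    intro x hx
    have h1 : x ∈ (Submodule.span ℝ (Set.range ![G1, G2]))ᗮ := hx.1.2
    have h2 : x ∈ Submodule.span ℝ (Set.range ![G1, G2]) := hx.2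
    have : x ∈ Submodule.span ℝ (Set.range ![G1, G2]) ⊓
        (Submodule.span ℝ (Set.range ![G1, G2]))ᗮ := ⟨h2, h1⟩
    rw [Submodule.inf_orthogonal_eq_bot] at this
    exact this
  have h := Submodule.finrank_sup_add_finrank_inf_eq
    (P ⊓ (Submodule.span ℝ (Set.range ![G1, G2]))ᗮ) (Submodule.span ℝ (Set.range ![G1, G2]))
  rw [hdisj, finrank_bot, hS] at h
  have hle : Module.finrank ℝ ↥((P ⊓ (Submodule.span ℝ (Set.range ![G1, G2]))ᗮ) ⊔
      Submodule.span ℝ (Set.range ![G1, G2])) ≤ Module.finrank ℝ P :=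
    Submodule.finrank_mono (sup_le inf_le_left hSP)
  omega

/-- A finite-dimensional inner product space of dimension at most `n` embeds isometrically into
the Euclidean space of dimension `n`. -/
theorem exists_isometry_of_finrank_le [FiniteDimensional ℝ E] (n : ℕ)
    (h : Module.finrank ℝ E ≤ n) : ∃ φ : E → EuclideanSpace ℝ (Fin n),
      ∀ x y, dist (φ x) (φ y) = dist x y := by
  let b := stdOrthonormalBasis ℝ E
  let v : Fin (Module.finrank ℝ E) → EuclideanSpace ℝ (Fin n) :=
    fun i => EuclideanSpace.basisFun (Fin n) ℝ (Fin.castLE h i)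
  have hv : Orthonormal ℝ v :=
    (EuclideanSpace.basisFun (Fin n) ℝ).orthonormal.comp _ (Fin.castLE_injective h)
  let f : E →ₗ[ℝ] EuclideanSpace ℝ (Fin n) := b.toBasis.constr ℝ v
  have hf : Orthonormal ℝ (f ∘ b.toBasis) := by
    have : f ∘ b.toBasis = v := by
      funext i
      simp [f]
    rw [this]
    exact hv
  let φ := f.isometryOfOrthonormal b.orthonormal hf
  exact ⟨φ, fun x y => φ.dist_map x y⟩

end General

end Vale.Agent.H71.Borsuk

namespace Vale.Agent.H71.Borsuk

open Finset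

set_option linter.unusedSectionVars false

variable {V : Type} [Fintype V] [DecidableEq V] (adj : V → V → Prop) [DecidableRel adj]

/-- The rows of `16 I + 4 A - J` as vectors of Euclidean space. -/
noncomputable def rvec (v : V) : EuclideanSpace ℝ V := WithLp.toLp 2 (fun w => rEntry adj v w)

theorem inner_toLp (x y : V → ℝ) :
    inner ℝ (WithLp.toLp 2 x : EuclideanSpace ℝ V) (WithLp.toLp 2 y) = ∑ w, x w * y w := by
  rw [EuclideanSpace.inner_toLp_toLp]
  simp [dotProduct, mul_comm]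

/-- The map `(1/96) (16 I + 4 A - J)` on Euclidean space. -/
noncomputable def qmap : EuclideanSpace ℝ V →ₗ[ℝ] EuclideanSpace ℝ V :=
  (1 / 96 : ℝ) • Matrix.toLpLin 2 2 (Matrix.of (rEntry adj))

theorem qmap_toLp (x : V → ℝ) (hx : ∀ u, ∑ w, rEntry adj u w * x w = 96 * x u) :
    qmap adj (WithLp.toLp 2 x) = WithLp.toLp 2 x := by
  unfold qmap
  rw [LinearMap.smul_apply, Matrix.toLpLin_toLp]
  have : Matrix.toLin' (Matrix.of (rEntry adj)) x = (96 : ℝ) • x := by
    funext u
    simp [Matrix.toLin'_apply, Matrix.mulVec, dotProduct, hx u]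
  rw [this, WithLp.toLp_smul, smul_smul]
  norm_num

theorem qmap_idem (hsymm : ∀ u v, adj u v → adj v u) (hirr : ∀ v, ¬ adj v v)
    (hcard : Fintype.card V = 416)
    (hsrg : ∀ u v, (univ.filter (fun w => adj u w ∧ adj v w)).card =
      if u = v then 100 else if adj u v then 36 else 20) :
    IsIdempotentElem (qmap adj) := by
  have hM : Matrix.of (rEntry adj) * Matrix.of (rEntry adj) =
      (96 : ℝ) • Matrix.of (rEntry adj) := by
    ext u v
    rw [Matrix.mul_apply]
    simp only [Matrix.of_apply, Matrix.smul_apply, smul_eq_mul]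
    rw [← sum_rEntry_mul adj hsymm hirr hcard hsrg u v]
    refine Finset.sum_congr rfl (fun w _ => ?_)
    rw [rEntry_symm adj hsymm w v]
  unfold IsIdempotentElem qmap
  rw [smul_mul_smul_comm, Module.End.mul_eq_comp, ← Matrix.toLpLin_mul_same, hM, map_smul,
    smul_smul]
  norm_num

theorem trace_qmap (hirr : ∀ v, ¬ adj v v) (hcard : Fintype.card V = 416) :
    LinearMap.trace ℝ _ (qmap adj) = 65 := by
  unfold qmap
  rw [map_smul, Matrix.toLpLin_eq_toLin, Matrix.trace_toLin_eq]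
  simp [Matrix.trace, rEntry_self adj hirr, hcard]
  norm_num

theorem finrank_range_qmap (hsymm : ∀ u v, adj u v → adj v u) (hirr : ∀ v, ¬ adj v v)
    (hcard : Fintype.card V = 416)
    (hsrg : ∀ u v, (univ.filter (fun w => adj u w ∧ adj v w)).card =
      if u = v then 100 else if adj u v then 36 else 20) :
    Module.finrank ℝ (LinearMap.range (qmap adj)) = 65 := by
  have h := (LinearMap.IsIdempotentElem.isProj_range (qmap adj)
    (qmap_idem adj hsymm hirr hcard hsrg)).trace
  rw [trace_qmap adj hirr hcard] at h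
  exact_mod_cast h.symm

end Vale.Agent.H71.Borsuk

namespace Vale.Agent.H71

open Finset Borsuk

theorem borsuk63_of_data {V : Type} [Fintype V] [DecidableEq V]
    (adj : V → V → Prop) [DecidableRel adj]
    (hsymm : ∀ u v, adj u v → adj v u) (hirr : ∀ v, ¬ adj v v)
    (hcard : Fintype.card V = 416)
    (hsrg : ∀ u v, (univ.filter (fun w => adj u w ∧ adj v w)).card =
        if u = v then 100 else if adj u v then 36 else 20)
    (g1 g2 : V → ℤ)
    (heig1 : ∀ v, ∑ w ∈ univ.filter (fun w => adj v w), g1 w = 20 * g1 v)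
    (heig2 : ∀ v, ∑ w ∈ univ.filter (fun w => adj v w), g2 w = 20 * g2 v)
    (h11 : ∑ v, g1 v ^ 2 = 64) (h22 : ∑ v, g2 v ^ 2 = 64)
    (ε : ℤ) (hε : ε = 1 ∨ ε = -1) (h12 : ∑ v, g1 v * g2 v = 32 * ε)
    (t : V) (σ : ℤ) (hσ : σ = 1 ∨ σ = -1) (ht1 : g1 t = σ) (ht2 : g2 t = 0)
    (hW : 320 < (univ.filter (fun s => (g1 s = 0 ∧ g2 s = 0) ∨ s = t)).card)
    (hclique : ∀ S : Finset V, (∀ s ∈ S, (g1 s = 0 ∧ g2 s = 0) ∨ s = t) →
        (∀ u ∈ S, ∀ v ∈ S, u ≠ v → adj u v) → S.card ≤ 5) :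
    ∃ X : Finset (EuclideanSpace ℝ (Fin 63)),
      0 < Metric.diam (X : Set (EuclideanSpace ℝ (Fin 63))) ∧
      ∀ S : Fin 64 → Set (EuclideanSpace ℝ (Fin 63)),
        (X : Set (EuclideanSpace ℝ (Fin 63))) ⊆ ⋃ i, S i →
        ∃ i, Metric.diam (S i ∩ (X : Set (EuclideanSpace ℝ (Fin 63)))) =
          Metric.diam (X : Set (EuclideanSpace ℝ (Fin 63))) := by
  classical
  -- real versions of the data
  have hεr : (ε : ℝ) ^ 2 = 1 := by
    rcases hε with h | h <;> rw [h] <;> norm_num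
  have hσr : (σ : ℝ) ^ 2 = 1 := by
    rcases hσ with h | h <;> rw [h] <;> norm_num
  have eig : ∀ g : V → ℤ, (∀ v, ∑ w ∈ univ.filter (fun w => adj v w), g w = 20 * g v) →
      ∀ v, ∑ w, (if adj v w then (1:ℝ) else 0) * ((g w : ℤ) : ℝ) = 20 * ((g v : ℤ) : ℝ) := by
    intro g hg v
    have h := congrArg (Int.cast : ℤ → ℝ) (hg v)
    rw [Finset.sum_filter] at h
    push_cast at h
    rw [← h]
    refine Finset.sum_congr rfl (fun w _ => ?_)
    by_cases hw : adj v w <;> simp [hw]
  have eig1 := eig g1 heig1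
  have eig2 := eig g2 heig2
  have hRg1 : ∀ v, ∑ w, rEntry adj v w * ((g1 w : ℤ) : ℝ) = 96 * ((g1 v : ℤ) : ℝ) :=
    sum_rEntry_mul_g adj hsymm hsrg _ eig1
  have hRg2 : ∀ v, ∑ w, rEntry adj v w * ((g2 w : ℤ) : ℝ) = 96 * ((g2 v : ℤ) : ℝ) :=
    sum_rEntry_mul_g adj hsymm hsrg _ eig2
  have hRR : ∀ u v, ∑ w, rEntry adj u w * rEntry adj v w = 96 * rEntry adj u v :=
    sum_rEntry_mul adj hsymm hirr hcard hsrg
  -- the vectors
  set G1 : EuclideanSpace ℝ V := WithLp.toLp 2 (fun v => ((g1 v : ℤ) : ℝ)) with hG1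
  set G2 : EuclideanSpace ℝ V := WithLp.toLp 2 (fun v => ((g2 v : ℤ) : ℝ)) with hG2
  have hrr : ∀ u v, inner ℝ (rvec adj u) (rvec adj v) = 96 * rEntry adj u v := by
    intro u v
    unfold rvec
    rw [inner_toLp]
    exact hRR u v
  have hr1 : ∀ s, inner ℝ (rvec adj s) G1 = 96 * ((g1 s : ℤ) : ℝ) := by
    intro s
    rw [hG1]
    unfold rvec
    rw [inner_toLp]
    exact hRg1 s
  have hr2 : ∀ s, inner ℝ (rvec adj s) G2 = 96 * ((g2 s : ℤ) : ℝ) := by
    intro s
    rw [hG2]
    unfold rvec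
    rw [inner_toLp]
    exact hRg2 s
  have h11r : inner ℝ G1 G1 = 64 := by
    rw [hG1, inner_toLp]
    have h := congrArg (Int.cast : ℤ → ℝ) h11
    push_cast at h
    rw [← h]
    exact Finset.sum_congr rfl (fun w _ => by ring)
  have h22r : inner ℝ G2 G2 = 64 := by
    rw [hG2, inner_toLp]
    have h := congrArg (Int.cast : ℤ → ℝ) h22
    push_cast at h
    rw [← h]
    exact Finset.sum_congr rfl (fun w _ => by ring)
  have h12r : inner ℝ G1 G2 = 32 * (ε : ℝ) := by
    rw [hG1, hG2, inner_toLp]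
    have h := congrArg (Int.cast : ℤ → ℝ) h12
    push_cast at h
    rw [← h]
  have ht1r : ((g1 t : ℤ) : ℝ) = (σ : ℝ) := by rw [ht1]
  have ht2r : ((g2 t : ℤ) : ℝ) = 0 := by rw [ht2]; simp
  -- the subspace
  have hG1P : G1 ∈ LinearMap.range (qmap adj) := ⟨G1, qmap_toLp adj _ hRg1⟩
  have hG2P : G2 ∈ LinearMap.range (qmap adj) := ⟨G2, qmap_toLp adj _ hRg2⟩
  have hrP : ∀ s, rvec adj s ∈ LinearMap.range (qmap adj) := by
    intro s
    refine ⟨rvec adj s, qmap_toLp adj _ (fun u => ?_)⟩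
    rw [hRR u s, rEntry_symm adj hsymm u s]
  have hK : Module.finrank ℝ ↥(LinearMap.range (qmap adj) ⊓
      (Submodule.span ℝ (Set.range ![G1, G2]))ᗮ) ≤ 63 :=
    finrank_inf_orthogonal_le _ G1 G2 (ε : ℝ) hεr hG1P hG2P h11r h22r h12r 63
      (finrank_range_qmap adj hsymm hirr hcard hsrg)
  have hptK : ∀ s, ((g1 s = 0 ∧ g2 s = 0) ∨ s = t) →
      pt (rvec adj) G1 G2 (ε : ℝ) (σ : ℝ) t s ∈ LinearMap.range (qmap adj) ⊓
        (Submodule.span ℝ (Set.range ![G1, G2]))ᗮ := by
    intro s hs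
    by_cases hst : s = t
    · have e : pt (rvec adj) G1 G2 (ε : ℝ) (σ : ℝ) t s =
          alpha • pvec (rvec adj) G1 G2 (ε : ℝ) (σ : ℝ) t := by
        unfold pt; rw [if_pos hst]
      rw [e]
      refine Submodule.smul_mem _ _ ⟨?_, ?_⟩
      · unfold pvec
        exact Submodule.add_mem _ (Submodule.sub_mem _ (hrP t) (Submodule.smul_mem _ _ hG1P))
          (Submodule.smul_mem _ _ hG2P)
      · refine mem_orthogonal_span_range _ _ (fun i => ?_)
        fin_cases i
        · show inner ℝ G1 _ = 0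
          rw [real_inner_comm]
          exact inner_pvec_G1 (rvec adj) G1 G2 _ (ε : ℝ) (σ : ℝ) t hεr hr1 h11r h12r ht1r
        · show inner ℝ G2 _ = 0
          rw [real_inner_comm]
          exact inner_pvec_G2 (rvec adj) G1 G2 _ (ε : ℝ) (σ : ℝ) t hr2 h22r h12r ht2r
    · have e : pt (rvec adj) G1 G2 (ε : ℝ) (σ : ℝ) t s = rvec adj s := by
        unfold pt; rw [if_neg hst]
      rw [e]
      rcases hs with ⟨hs1, hs2⟩ | hs
      · refine ⟨hrP s, mem_orthogonal_span_range _ _ (fun i => ?_)⟩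
        fin_cases i
        · show inner ℝ G1 _ = 0
          rw [real_inner_comm, hr1, hs1]; simp
        · show inner ℝ G2 _ = 0
          rw [real_inner_comm, hr2, hs2]; simp
      · exact absurd hs hst
  obtain ⟨φ, hφ⟩ := exists_isometry_of_finrank_le
    (E := ↥(LinearMap.range (qmap adj) ⊓ (Submodule.span ℝ (Set.range ![G1, G2]))ᗮ)) 63 hK
  -- the points
  set W : Finset V := univ.filter (fun s => (g1 s = 0 ∧ g2 s = 0) ∨ s = t) with hWdef
  have hWmem : ∀ s, s ∈ W ↔ ((g1 s = 0 ∧ g2 s = 0) ∨ s = t) := by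
    intro s; simp [hWdef]
  let Pt : V → EuclideanSpace ℝ (Fin 63) := fun s =>
    if h : ((g1 s = 0 ∧ g2 s = 0) ∨ s = t) then
      φ ⟨pt (rvec adj) G1 G2 (ε : ℝ) (σ : ℝ) t s, hptK s h⟩ else 0
  have hPt : ∀ u ∈ W, ∀ v ∈ W, dist (Pt u) (Pt v) =
      dist (pt (rvec adj) G1 G2 (ε : ℝ) (σ : ℝ) t u) (pt (rvec adj) G1 G2 (ε : ℝ) (σ : ℝ) t v) := by
    intro u hu v hv
    have hu' := (hWmem u).1 hu
    have hv' := (hWmem v).1 hv
    simp only [Pt, dif_pos hu', dif_pos hv']
    rw [hφ]
    rfl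
  have table : ∀ u ∈ W, ∀ v ∈ W, u ≠ v →
      dist (Pt u) (Pt v) ^ 2 ≤ 3072 ∧ 0 < dist (Pt u) (Pt v) ^ 2 ∧
      (¬ adj u v → dist (Pt u) (Pt v) ^ 2 = 3072) := by
    intro u hu v hv huv
    rw [hPt u hu v hv]
    exact dist_sq_pt adj (rvec adj) G1 G2 _ _ (ε : ℝ) (σ : ℝ) t hsymm hirr hεr hσr hrr hr1 hr2
      h11r h22r h12r ht1r ht2r u v
      (by have := (hWmem u).1 hu; simpa using this) (by have := (hWmem v).1 hv; simpa using this)
      huv
  refine ⟨W.image Pt, ?_, ?_⟩
  · -- positive diameter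
    have h1 : 1 < W.card := by omega
    obtain ⟨u, hu, v, hv, huv⟩ := Finset.one_lt_card.1 h1
    obtain ⟨-, hpos, -⟩ := table u hu v hv huv
    have hd : 0 < dist (Pt u) (Pt v) := by
      rcases (dist_nonneg (x := Pt u) (y := Pt v)).lt_or_eq with h | h
      · exact h
      · rw [← h] at hpos; norm_num at hpos
    refine lt_of_lt_of_le hd (Metric.dist_le_diam_of_mem (W.image Pt).finite_toSet.isBounded ?_ ?_)
    · exact Finset.mem_coe.2 (Finset.mem_image_of_mem Pt hu)
    · exact Finset.mem_coe.2 (Finset.mem_image_of_mem Pt hv)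
  · intro S hcov
    have hXb : Bornology.IsBounded ((W.image Pt : Finset (EuclideanSpace ℝ (Fin 63))) :
        Set (EuclideanSpace ℝ (Fin 63))) := (W.image Pt).finite_toSet.isBounded
    have hdiam : Metric.diam ((W.image Pt : Finset (EuclideanSpace ℝ (Fin 63))) :
        Set (EuclideanSpace ℝ (Fin 63))) ≤ Real.sqrt 3072 := by
      refine Metric.diam_le_of_forall_dist_le (Real.sqrt_nonneg _) ?_
      intro x hx y hy
      obtain ⟨u, hu, rfl⟩ := Finset.mem_image.1 (Finset.mem_coe.1 hx)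
      obtain ⟨v, hv, rfl⟩ := Finset.mem_image.1 (Finset.mem_coe.1 hy)
      by_cases huv : u = v
      · rw [huv, dist_self]; exact Real.sqrt_nonneg _
      · exact le_trans (le_abs_self _) (Real.abs_le_sqrt (table u hu v hv huv).1)
    by_contra hne0
    have hne : ∀ i, Metric.diam (S i ∩ ((W.image Pt : Finset (EuclideanSpace ℝ (Fin 63))) :
        Set (EuclideanSpace ℝ (Fin 63)))) ≠ Metric.diam ((W.image Pt :
        Finset (EuclideanSpace ℝ (Fin 63))) : Set (EuclideanSpace ℝ (Fin 63))) :=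
      fun i h => hne0 ⟨i, h⟩
    have hlt : ∀ i, Metric.diam (S i ∩ ((W.image Pt : Finset (EuclideanSpace ℝ (Fin 63))) :
        Set (EuclideanSpace ℝ (Fin 63)))) < Real.sqrt 3072 := fun i =>
      lt_of_lt_of_le (lt_of_le_of_ne (Metric.diam_mono Set.inter_subset_right hXb) (hne i)) hdiam
    have hex : ∀ s ∈ W, ∃ i, Pt s ∈ S i := by
      intro s hs
      have := hcov (Finset.mem_coe.2 (Finset.mem_image_of_mem Pt hs))
      simpa [Set.mem_iUnion] using this
    choose! f hf using hex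
    obtain ⟨i, -, hi⟩ := Finset.exists_lt_card_fiber_of_mul_lt_card_of_maps_to (s := W)
      (t := (univ : Finset (Fin 64))) (f := f) (n := 5) (fun a _ => mem_univ _)
      (by simpa using hW)
    have hcl := hclique (W.filter (fun s => f s = i))
      (fun s hs => (hWmem s).1 (Finset.mem_filter.1 hs).1) ?_
    · omega
    · intro u hu v hv huv
      by_contra hadj
      obtain ⟨huW, hfu⟩ := Finset.mem_filter.1 hu
      obtain ⟨hvW, hfv⟩ := Finset.mem_filter.1 hv
      have h3 := (table u huW v hvW huv).2.2 hadj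
      have hd : dist (Pt u) (Pt v) = Real.sqrt 3072 := by
        rw [← h3, Real.sqrt_sq dist_nonneg]
      have hle : dist (Pt u) (Pt v) ≤ Metric.diam (S i ∩
          ((W.image Pt : Finset (EuclideanSpace ℝ (Fin 63))) :
            Set (EuclideanSpace ℝ (Fin 63)))) := by
        refine Metric.dist_le_diam_of_mem (hXb.subset Set.inter_subset_right) ⟨?_, ?_⟩ ⟨?_, ?_⟩
        · rw [← hfu]; exact hf u huW
        · exact Finset.mem_coe.2 (Finset.mem_image_of_mem Pt huW)
        · rw [← hfv]; exact hf v hvW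
        · exact Finset.mem_coe.2 (Finset.mem_image_of_mem Pt hvW)
      have := hlt i
      linarith

end Vale.Agent.H71
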